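import Vale.Agent.P028.MathlibUsed
import Vale.Agent.P028.R26.OmtB
import Vale.Agent.P028.H530.Delta
attribute [-instance] ProperSMul.toContinuousSMul IsTopologicalTorsor.toContinuousSMul IdemSemiring.toCanonicallyOrderedAdd IdemSemiring.toMulLeftMono IdemSemiring.toMulRightMono AddQuantale.instAddLeftMono AddQuantale.instAddRightMono Quantale.instMulLeftMono Quantale.instMulRightMono FiniteDimensional.rclike_to_real IsScalarTower.complexToReal FiniteDimensional.complexToReal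

/-!
# Class F at one scale: definitions, and the row at a fixed stage with a cut
-/

namespace Vale.P028.SK

open Finset CF RN

/-- the part of `n` at the primes `≤ x` -/
noncomputable def lowp (x n : ℕ) : ℕ :=
  ∏ p ∈ n.primeFactors.filter (fun p => p ≤ x), p ^ n.factorization p

/-- the hypotheses of a row at a fixed stage: fixed fractions, fixed labels above `x` -/
structure RowHyp (g : Cfg) (c1 c : ℝ) (i x t q : ℕ) (F G : ℚ) (B : ℕ) (S : Finset ℕ)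
    (n : ℕ → ℤ) : Prop where
  i1 : 1 ≤ i
  i2 : i ≤ nst g
  zt : zs g ≤ t
  tx : t ≤ x
  xz : x ≤ z g i
  hq : q ∈ V1 g
  sub : S ⊆ V1 g
  pd : ∀ r ∈ S, PD g i t q r (n r) F G
  kd : ∀ r ∈ S, Kd g (dd g c1 c) q r (n r) ≠ 0
  lq : (Real.log (CF.KK g i q F)) ^ (3 / 2 : ℝ) ≤ t
  lr : ∀ r ∈ S, (Real.log (CF.KK g i r G)) ^ (3 / 2 : ℝ) ≤ t
  unq : ∀ j, i ≤ j → j ≤ nst g → t < z g j → ∃ b, st g j q = some (F, b)
  un : ∀ r ∈ S, ∀ j, i ≤ j → j ≤ nst g → t < z g j → ∃ b, st g j r = some (G, b)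
  bb : ∀ r ∈ S, BB g i q r F G = B
  lab : ∀ r ∈ S, ∀ r' ∈ S, ∀ p, x < p → r.factorization p = r'.factorization p

/-- the weight of a row: omitted primes `≤ x` of `q` with their exact weight, tilted by `s`,
omitted primes `≤ x` of `r`, rest part at the primes `≤ x` -/
noncomputable def rowW (g : Cfg) (d : ℕ → ℕ → ℝ) (lam s : ℝ) (x t B q r a b : ℕ) : ℝ :=
  (∏ p ∈ (UO g d t B q a).filter (fun p => p ≤ x),
    (lam * d q p * ((p ^ a.factorization p : ℕ) : ℝ) ^ (-(1 - s)))) *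
  (∏ p ∈ (UO g d t B r b).filter (fun p => p ≤ x), (lam * d r p)) *
  (((lowp x (rst g d t B q a) : ℕ) : ℝ) * ((lowp x (rst g d t B r b) : ℕ) : ℝ)) ^ (-(5 / 12) : ℝ)

/-- the omission probabilities at the omitted primes `> x` -/
noncomputable def hiW (g : Cfg) (d : ℕ → ℕ → ℝ) (lam : ℝ) (x t B q a : ℕ) : ℝ :=
  ∏ p ∈ (UO g d t B q a).filter (fun p => x < p), (lam * d q p)

/-- the omitted part at the primes `> x` -/
noncomputable def hiO (g : Cfg) (d : ℕ → ℕ → ℝ) (x t B q a : ℕ) : ℕ :=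
  ∏ p ∈ (UO g d t B q a).filter (fun p => x < p), p ^ a.factorization p

/-- **The row at a fixed stage, with a cut.** -/
def RowX (c1 c lam : ℝ) : Prop := ∃ C ≥ 0, ∀ g : Cfg,
  Real.exp 1 ≤ g.K.P.ρ0 ^ (-g.K.P.c0) → JsOK g.K g.Js → g.Js ≤ g.X → g.V ⊆ Icc 1 (N g) →
  2 ≤ c1 * zs g → (2 : ℝ) ^ (100 : ℕ) ≤ zs g →
  ∀ (i x t q : ℕ) (F G : ℚ) (B : ℕ) (S : Finset ℕ) (n : ℕ → ℤ) (s : ℝ), 0 ≤ s → s ≤ 1 / 4 →
    (x : ℝ) ^ s ≤ Real.exp 8 → RowHyp g c1 c i x t q F G B S n →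
    ∑ r ∈ S, rowW g (dd g c1 c) lam s x t B q r (rcof (z g i) (N g) (kc g q) q r)
      (rcof (z g i) (N g) (kc g q) r q) ≤
      Real.exp (C + C * (t : ℝ) ^ (7 / 12 : ℝ) + C * (Real.log B) ^ (7 / 12 : ℝ))

end Vale.P028.SK
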